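import Vale.Agent.P284.H402.A.Spec
import Vale.Agent.P284.H958.V9
import Vale.Agent.P284.H639.V5
import Vale.Agent.P284.H913.V3
import Vale.Agent.P268.Hol

/-!
# P284, module (A''), PB (helper213): Poincaré type bound `∫ f² ≤ c (∫ |Ω_A|² f² + ∫ |df|²)`
-/

open scoped Manifold ContDiff Topology Pointwise ComplexConjugate ComplexOrder Matrix
open Filter Set Metric MeasureTheory

noncomputable section

namespace Vale.Agent.P284.H213.PB

open Vale.Agent.P272.K Vale.Agent.P284.H248 Vale.Agent.P284.H894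
  Vale.Agent.P284.H894.V Vale.Agent.P284.H402.A Vale.Agent.P284.H958 Vale.Agent.P284.H639.V

/-! ### Pointwise facts -/

section
variable {n q : ℕ}

theorem TT_zero (w : Matrix (Fin n) (Fin n) ℂ) (θ : Matrix (Fin n) (Fin q) ℂ) :
    TT w θ 0 = θᴴ * w⁻¹ * θ := by
  simp [TT]

theorem DD_zero (w : Matrix (Fin n) (Fin n) ℂ) (θ : Matrix (Fin n) (Fin q) ℂ) :
    DD w θ 0 = (θᴴ * w⁻¹ * θ).det.re := by
  rw [DD, TT_zero]

theorem DD_zero_nonneg (w : Matrix (Fin n) (Fin n) ℂ) (θ : Matrix (Fin n) (Fin q) ℂ)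
    (hw : w.PosDef) : 0 ≤ DD w θ 0 := by
  rw [DD_zero]
  have h1 : (θᴴ * w⁻¹ * θ).PosSemidef := by
    have := hw.inv.posSemidef.conjTranspose_mul_mul_same θ
    exact this
  exact (Complex.le_def.1 h1.det_nonneg).1

theorem DD_zero_pos (w : Matrix (Fin n) (Fin n) ℂ) (θ : Matrix (Fin n) (Fin q) ℂ)
    (hw : w.PosDef) (hθ : Function.Injective θ.mulVec) : 0 < DD w θ 0 := by
  rw [DD_zero]
  have h1 : (θᴴ * w⁻¹ * θ).PosDef := by
    exact hw.inv.conjTranspose_mul_mul_same hθ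
  exact (Complex.lt_def.1 h1.det_pos).1

theorem DD_change (w w' J : Matrix (Fin n) (Fin n) ℂ) (θ θ' : Matrix (Fin n) (Fin q) ℂ)
    (hw : w.PosDef) (h1 : w = J.transpose * w' * J.map (starRingEnd ℂ))
    (h2 : θ = J.transpose * θ') : DD w θ 0 = DD w' θ' 0 := by
  have hJ : J.map (starRingEnd ℂ) = Jᵀᴴ := by
    ext i j
    simp [Matrix.conjTranspose_apply]
  rw [DD_zero, DD_zero]
  congr 2
  have hdet : w.det ≠ 0 := hw.det_pos.ne'
  rw [h1, Matrix.det_mul, Matrix.det_mul] at hdet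
  have hd1 : IsUnit (Jᵀ).det := isUnit_iff_ne_zero.2 (left_ne_zero_of_mul (left_ne_zero_of_mul hdet))
  have hd2 : IsUnit (Jᵀᴴ).det := by
    rw [← hJ]; exact isUnit_iff_ne_zero.2 (right_ne_zero_of_mul hdet)
  rw [h1, h2, Matrix.conjTranspose_mul, hJ, Matrix.mul_inv_rev, Matrix.mul_inv_rev]
  calc θ'ᴴ * Jᵀᴴ * ((Jᵀᴴ)⁻¹ * (w'⁻¹ * Jᵀ⁻¹)) * (Jᵀ * θ')
      = θ'ᴴ * (Jᵀᴴ * (Jᵀᴴ)⁻¹) * w'⁻¹ * (Jᵀ⁻¹ * Jᵀ) * θ' := by
        simp only [Matrix.mul_assoc]
    _ = θ'ᴴ * w'⁻¹ * θ' := by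
        rw [Matrix.mul_nonsing_inv _ hd2, Matrix.nonsing_inv_mul _ hd1]
        simp only [Matrix.mul_one]

end

section
variable {n q : ℕ} {Γ : Type} [Group Γ] {C : Coc n Γ}

theorem dD_nonneg (K : KM C) (θ : HF C q) {a : C.I} {z : Cm n} (hz : z ∈ C.Ω a) :
    0 ≤ dD K θ 0 a z := DD_zero_nonneg _ _ ((K.ku a).pos z hz)

theorem dD_change (K : KM C) (θ : HF C q) {a b : C.I} {z : Cm n} (hz : z ∈ C.O a b) :
    dD K θ 0 a z = dD K θ 0 b (C.T a b z) :=
  DD_change _ _ (jac C a b z) _ _ ((K.ku a).pos z (C.O_sub a b hz)) (K.change a b z hz)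
    (θ.change a b z hz)

theorem th_mc (θ : HF C q) {a : C.I} {z : Cm n} (hz : z ∈ C.Ω a) : C2.MC ∞ (θ.th a) z := by
  intro i j
  have h1 : AnalyticAt ℂ (fun y => θ.th a y i j) z :=
    Vale.Agent.P268.analyticAt_of_differentiableOn (isOpen_Ω C a) (θ.holo a i j) hz
  exact (h1.contDiffAt (n := ∞)).restrict_scalars ℝ

theorem dD_smooth (K : KM C) (θ : HF C q) {a : C.I} {z : Cm n} (hz : z ∈ C.Ω a) :
    ContDiffAt ℝ ∞ (dD K θ 0 a) z := by
  have h1 : dD K θ 0 a = fun z => ((θ.th a z)ᴴ * (K.w a z)⁻¹ * θ.th a z).det.re := by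
    funext z
    exact DD_zero _ _
  rw [h1]
  exact re_smooth ((((th_mc θ hz).conjTranspose).mul (KU_inv (K.ku a) hz)).mul (th_mc θ hz)).det

/-- the density `|Ω_A|² f²` -/
theorem fam_ip (K : KM C) (θ : HF C q) {f h : Γ → C.I → Cm n → ℝ} (hf : IsTst C f)
    (hh : IsTst C h) : Fam C (fun γ a z => dD K θ 0 a z * (f γ a z * h γ a z)) where
  cont γ a z hz := ((dD_smooth K θ hz).mul ((hf.smooth γ a z hz).mul
    (hh.smooth γ a z hz))).continuousAt.continuousWithinAt
  compat γ a b z hz := by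
    rw [dD_change K θ hz, hf.compat γ a b z hz, hh.compat γ a b z hz]
  fin := by
    refine hf.fin.subset ?_
    rintro γ ⟨a, z, hz, h0⟩
    exact ⟨a, z, hz, fun h1 => h0 (by rw [h1, zero_mul, mul_zero])⟩

/-- a ball in the ball number `a` where `|Ω_A|²` is bounded below -/
theorem exists_ball (K : KM C) (θ : HF C q) (a : C.I) : ∃ (y : Cm n) (ρ d : ℝ), 0 < ρ ∧ 0 < d ∧
    ball y ρ ⊆ C.W a ∧ ∀ z ∈ ball y ρ, d ≤ dD K θ 0 a z := by
  have hW : C.W a ⊆ C.Ω a := (C.W_sub a).trans (C.V_sub a)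
  obtain ⟨y, hy, hinj⟩ := θ.dense a (C.W a) isOpen_ball
    ⟨C.c a, mem_ball_self (C.r_pos a)⟩ hW
  have hpos : 0 < dD K θ 0 a y := DD_zero_pos _ _ ((K.ku a).pos y (hW hy)) hinj
  have hc : ContinuousAt (dD K θ 0 a) y := (dD_smooth K θ (hW hy)).continuousAt
  have h1 : ∀ᶠ z in 𝓝 y, dD K θ 0 a y / 2 < dD K θ 0 a z :=
    hc.eventually (lt_mem_nhds (by linarith))
  obtain ⟨ρ, hρ, hρ'⟩ := Metric.eventually_nhds_iff_ball.1
    (h1.and (isOpen_ball.mem_nhds hy : C.W a ∈ 𝓝 y))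
  exact ⟨y, ρ, dD K θ 0 a y / 2, hρ, by linarith, fun z hz => (hρ' z hz).2,
    fun z hz => (hρ' z hz).1.le⟩

/-- the bound in one piece -/
theorem piece (h11 : V11Stmt) (K : KM C) (θ : HF C q) (a : C.I) : ∃ c : ℝ, 0 < c ∧
    ∀ f : Cm n → ℝ, (∀ z ∈ C.Ω a, ContDiffAt ℝ ∞ f z) →
      ∫ z in C.W a, f z ^ 2 ≤
        c * ((∫ z in C.V a, dD K θ 0 a z * (f z * f z)) + ∫ z in C.V a, D1 f z) := by
  obtain ⟨A, hA0, hA⟩ := poinc h11 n (C.r a) (C.r_pos a)
  obtain ⟨y, ρ, d, hρ, hd, hsub, hlow⟩ := exists_ball K θ a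
  set v : ℝ := (volume (ball y ρ)).toReal with hv
  have hv0 : 0 < v := ENNReal.toReal_pos (measure_ball_pos volume _ hρ).ne' measure_ball_lt_top.ne
  set V2 : ℝ := (volume (ball (C.c a) (2 * C.r a))).toReal with hV2
  have hV20 : 0 ≤ V2 := ENNReal.toReal_nonneg
  refine ⟨2 * A + 2 * (V2 / v) * (2 * (A + 1 / d)) + 1, by positivity, fun f hf => ?_⟩
  have hra := C.r_pos a
  have hsm : ∀ z ∈ closedBall (C.c a) (3 * C.r a), ContDiffAt ℝ ∞ f z := fun z hz =>
    hf z (C.cV_sub a hz)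
  obtain ⟨m, hm⟩ := hA (C.c a) f hsm
  have hfc : ContinuousOn f (C.Ω a) := fun z hz => (hf z hz).continuousAt.continuousWithinAt
  have hc2 : closedBall (C.c a) (2 * C.r a) ⊆ C.Ω a := (cball2_sub_V C a).trans (C.V_sub a)
  have hW2 : C.W a ⊆ ball (C.c a) (2 * C.r a) := ball_subset_ball (by linarith)
  have hVeq : C.V a = ball (C.c a) (3 * C.r a) := rfl
  set E : ℝ := ∫ z in C.V a, D1 f z with hE
  have hE0 : 0 ≤ E := integral_nonneg fun z => D1_nonneg _ _
  set S : ℝ := ∫ z in C.V a, dD K θ 0 a z * (f z * f z) with hS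
  have hS0 : 0 ≤ S := by
    refine setIntegral_nonneg measurableSet_ball fun z hz => ?_
    exact mul_nonneg (dD_nonneg K θ (C.V_sub a hz)) (mul_self_nonneg _)
  set P2 : ℝ := ∫ z in ball (C.c a) (2 * C.r a), (f z - m) ^ 2 with hP2
  have hP20 : 0 ≤ P2 := integral_nonneg fun z => sq_nonneg _
  have hP2A : P2 ≤ A * E := hm
  have i1 : IntegrableOn (fun z => f z ^ 2) (ball (C.c a) (2 * C.r a)) :=
    integrableOn_cball ((hfc.mono hc2).pow 2)
  have i2 : IntegrableOn (fun z => (f z - m) ^ 2) (ball (C.c a) (2 * C.r a)) :=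
    integrableOn_cball (((hfc.mono hc2).sub continuousOn_const).pow 2)
  have i3 : IntegrableOn (fun z => dD K θ 0 a z * (f z * f z)) (C.V a) := by
    refine integrableOn_cball (ContinuousOn.mono ?_ (C.cV_sub a))
    intro z hz
    exact ((dD_smooth K θ hz).mul ((hf z hz).mul (hf z hz))).continuousAt.continuousWithinAt
  -- `∫_{W} f² ≤ 2 P2 + 2 V2 m²`
  have h1 : ∫ z in C.W a, f z ^ 2 ≤ 2 * P2 + 2 * (V2 * m ^ 2) := by
    calc ∫ z in C.W a, f z ^ 2 ≤ ∫ z in ball (C.c a) (2 * C.r a), f z ^ 2 :=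
          setIntegral_mono_set i1 (Eventually.of_forall fun z => sq_nonneg _)
            (LE.le.eventuallyLE hW2)
      _ ≤ ∫ z in ball (C.c a) (2 * C.r a), (2 * (f z - m) ^ 2 + 2 * m ^ 2) := by
          refine setIntegral_mono_on i1
            ((i2.const_mul 2).add (integrableOn_const measure_ball_lt_top.ne))
            measurableSet_ball fun z _ => ?_
          nlinarith [sq_nonneg (f z - m - m)]
      _ = 2 * P2 + 2 * (V2 * m ^ 2) := by
          rw [integral_add (i2.const_mul 2) (integrableOn_const measure_ball_lt_top.ne),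
            integral_const_mul, setIntegral_const, measureReal_def, smul_eq_mul]
          ring
  -- `v m² ≤ 2 P2 + (2 / d) S`
  have hb2 : ball y ρ ⊆ ball (C.c a) (2 * C.r a) := hsub.trans hW2
  have hbV : ball y ρ ⊆ C.V a := hsub.trans (C.W_sub a)
  have h2 : v * m ^ 2 ≤ 2 * P2 + 2 * (1 / d * S) := by
    calc v * m ^ 2 = ∫ z in ball y ρ, m ^ 2 := by
          rw [setIntegral_const, measureReal_def, smul_eq_mul]
      _ ≤ ∫ z in ball y ρ, (2 * (f z - m) ^ 2 + 2 * (1 / d * (dD K θ 0 a z * (f z * f z)))) := by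
          refine setIntegral_mono_on (integrableOn_const measure_ball_lt_top.ne)
            (((i2.mono_set hb2).const_mul 2).add (((i3.mono_set hbV).const_mul (1 / d)).const_mul 2))
            measurableSet_ball fun z hz => ?_
          have h3 : f z * f z ≤ 1 / d * (dD K θ 0 a z * (f z * f z)) := by
            rw [one_div, inv_mul_eq_div, le_div_iff₀ hd, mul_comm]
            exact mul_le_mul_of_nonneg_right (hlow z hz) (mul_self_nonneg _)
          nlinarith [sq_nonneg (f z + (f z - m))]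
      _ = 2 * (∫ z in ball y ρ, (f z - m) ^ 2) +
            2 * (1 / d * ∫ z in ball y ρ, dD K θ 0 a z * (f z * f z)) := by
          rw [integral_add ((i2.mono_set hb2).const_mul 2)
            (((i3.mono_set hbV).const_mul (1 / d)).const_mul 2), integral_const_mul,
            integral_const_mul, integral_const_mul]
      _ ≤ 2 * P2 + 2 * (1 / d * S) := by
          have h4 : ∫ z in ball y ρ, (f z - m) ^ 2 ≤ P2 :=
            setIntegral_mono_set i2 (Eventually.of_forall fun z => sq_nonneg _)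
              (LE.le.eventuallyLE hb2)
          have h5 : ∫ z in ball y ρ, dD K θ 0 a z * (f z * f z) ≤ S := by
            refine setIntegral_mono_set i3 ?_ (LE.le.eventuallyLE hbV)
            refine (ae_restrict_iff' measurableSet_ball).2 (Eventually.of_forall fun z hz => ?_)
            exact mul_nonneg (dD_nonneg K θ (C.V_sub a hz)) (mul_self_nonneg _)
          gcongr
  have h3 : m ^ 2 ≤ (2 * P2 + 2 * (1 / d * S)) / v := by
    rw [le_div_iff₀ hv0, mul_comm]; exact h2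
  calc ∫ z in C.W a, f z ^ 2 ≤ 2 * P2 + 2 * (V2 * m ^ 2) := h1
    _ ≤ 2 * (A * E) + 2 * (V2 * ((2 * (A * E) + 2 * (1 / d * S)) / v)) := by
        have : m ^ 2 ≤ (2 * (A * E) + 2 * (1 / d * S)) / v := h3.trans (by gcongr)
        gcongr
    _ = 2 * A * E + 2 * (V2 / v) * (2 * A * E + 2 * (1 / d) * S) := by
        field_simp
    _ ≤ 2 * A * (S + E) + 2 * (V2 / v) * (2 * A * (S + E) + 2 * (1 / d) * (S + E)) := by
        gcongr <;> linarith
    _ ≤ (2 * A + 2 * (V2 / v) * (2 * (A + 1 / d)) + 1) * (S + E) := by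
        nlinarith

end

/-- **PB** -/
theorem pbStmt : PBStmt := by
  intro hP h3 h5 h11 n q Γ _ C P K θ
  classical
  choose c hc0 hc using fun a : C.I => piece h11 K θ a
  have hpos : ∀ a, ∀ z ∈ C.Ω a, (K.w a z).PosDef := fun a => (K.ku a).pos
  have hLam : ∀ a : C.I, 0 < K.Lam := fun a => K.lam_pos.trans_le (Lam_ge K a)
  obtain ⟨a₀⟩ := C.ne
  have hL := hLam a₀
  have hl := K.lam_pos
  set c₁ : ℝ := ∑ a, c a with hc₁
  have hcle : ∀ a, c a ≤ c₁ := fun a =>
    Finset.single_le_sum (f := c) (fun b _ => (hc0 b).le) (Finset.mem_univ a)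
  have hc₁0 : 0 < c₁ := (hc0 a₀).trans_le (hcle a₀)
  set N : ℝ := (Fintype.card C.I : ℝ) with hN
  have hN0 : 0 < N := by
    rw [hN]
    exact_mod_cast Fintype.card_pos
  refine ⟨N * (K.Lam * (N * (c₁ * ((1 + K.Lam) / K.lam)))), by positivity, fun f hf => ?_⟩
  have hSq : Fam C (fun γ a z => f γ a z ^ 2) := by
    have := (h5.fam C K f f hf hf).1
    simpa only [← sq] using this
  have hGr : Fam C (Gr K f f) := (h5.fam C K f f hf hf).2.1
  have hGr0 : ∀ γ a, ∀ z ∈ C.Ω a, 0 ≤ Gr K f f γ a z := fun γ a z hz =>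
    (hP.nonneg (K.w a) (f γ a) z (hpos a z hz)).1
  have hD := fam_ip K θ hf hf
  have hD0 : ∀ γ a, ∀ z ∈ C.Ω a, 0 ≤ dD K θ 0 a z * (f γ a z * f γ a z) := fun γ a z hz =>
    mul_nonneg (dD_nonneg K θ hz) (mul_self_nonneg _)
  set S : Finset Γ := hf.fin.toFinset with hS
  have hout : ∀ γ ∉ S, ∀ a, ∀ z ∈ C.V a, f γ a z = 0 := by
    intro γ hγ a z hz
    by_contra h0
    exact hγ (hf.fin.mem_toFinset.2 ⟨a, z, hz, h0⟩)
  set ID : ℝ := ip P K θ 0 f f with hID
  set IG : ℝ := V.Int P K (Gr K f f) with hIG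
  have hID0 : 0 ≤ ID := by
    have := sum_le_Int h3 P K hD hD0 a₀ ∅
    rw [Finset.sum_empty] at this
    have h := mul_nonneg this hl.le
    rwa [div_mul_cancel₀ _ hl.ne'] at h
  have hIG0 : 0 ≤ IG := by
    have := sum_le_Int h3 P K hGr hGr0 a₀ ∅
    rw [Finset.sum_empty] at this
    have h := mul_nonneg this hl.le
    rwa [div_mul_cancel₀ _ hl.ne'] at h
  -- one piece
  have h1 : ∀ γ a, ∫ z in C.W a, f γ a z ^ 2 * vol (K.w a) z ≤
      K.Lam * (c₁ * ((∫ z in C.V a, dD K θ 0 a z * (f γ a z * f γ a z)) +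
        K.Lam * ∫ z in C.V a, Gr K f f γ a z)) := by
    intro γ a
    have hfc : ContinuousOn (f γ a) (C.Ω a) := fun z hz =>
      (hf.smooth γ a z hz).continuousAt.continuousWithinAt
    have hWcl : closedBall (C.c a) (C.r a) ⊆ C.Ω a :=
      closedBall_subset_ball (by linarith [C.r_pos a])
    have hDG : ∫ z in C.V a, D1 (f γ a) z ≤ K.Lam * ∫ z in C.V a, Gr K f f γ a z := by
      rw [← integral_const_mul]
      refine integral_mono_of_nonneg (Eventually.of_forall fun z => D1_nonneg _ _) ?_ ?_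
      · exact (integrableOn_cball ((hGr.cont γ a).mono (C.cV_sub a))).const_mul _
      · refine (ae_restrict_iff' measurableSet_ball).2 (Eventually.of_forall fun z hz => ?_)
        have hz' := C.V_sub a hz
        exact (hP.ell (K.w a) (f γ a) z K.lam K.Lam (hpos a z hz') K.lam_pos (K.low a z hz')
          (K.up a z hz')).1
    have hSnn : 0 ≤ ∫ z in C.V a, dD K θ 0 a z * (f γ a z * f γ a z) :=
      setIntegral_nonneg measurableSet_ball fun z hz => hD0 γ a z (C.V_sub a hz)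
    have hDnn : 0 ≤ ∫ z in C.V a, D1 (f γ a) z := integral_nonneg fun z => D1_nonneg _ _
    calc ∫ z in C.W a, f γ a z ^ 2 * vol (K.w a) z ≤ ∫ z in C.W a, K.Lam * f γ a z ^ 2 := by
          refine setIntegral_mono_on
            (integrableOn_cball (((hfc.mono hWcl).pow 2).mul ((det_cont K a).mono hWcl)))
            ((integrableOn_cball ((hfc.mono hWcl).pow 2)).const_mul _) measurableSet_ball
            fun z hz => ?_
          rw [mul_comm]
          exact mul_le_mul_of_nonneg_right (K.vol_up a z (C.V_sub a (C.W_sub a hz)))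
            (sq_nonneg _)
      _ = K.Lam * ∫ z in C.W a, f γ a z ^ 2 := integral_const_mul _ _
      _ ≤ K.Lam * (c a * ((∫ z in C.V a, dD K θ 0 a z * (f γ a z * f γ a z)) +
            ∫ z in C.V a, D1 (f γ a) z)) := by
          gcongr
          exact hc a (f γ a) (hf.smooth γ a)
      _ ≤ K.Lam * (c₁ * ((∫ z in C.V a, dD K θ 0 a z * (f γ a z * f γ a z)) +
            ∫ z in C.V a, D1 (f γ a) z)) := by
          gcongr
          exact hcle a
      _ ≤ _ := by gcongr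
  -- the sum over the group
  have h2 : ∑' γ, ∑ a, ∫ z in C.W a, f γ a z ^ 2 * vol (K.w a) z =
      ∑ γ ∈ S, ∑ a, ∫ z in C.W a, f γ a z ^ 2 * vol (K.w a) z := by
    refine tsum_eq_sum fun γ hγ => Finset.sum_eq_zero fun a _ => ?_
    refine setIntegral_eq_zero_of_forall_eq_zero fun z hz => ?_
    rw [hout γ hγ a z (C.W_sub a hz)]
    simp
  have h4 : ∀ a, ∑ γ ∈ S, ∫ z in C.W a, f γ a z ^ 2 * vol (K.w a) z ≤
      K.Lam * (c₁ * ((1 + K.Lam) / K.lam * (ID + IG))) := by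
    intro a
    calc ∑ γ ∈ S, ∫ z in C.W a, f γ a z ^ 2 * vol (K.w a) z
        ≤ ∑ γ ∈ S, K.Lam * (c₁ * ((∫ z in C.V a, dD K θ 0 a z * (f γ a z * f γ a z)) +
          K.Lam * ∫ z in C.V a, Gr K f f γ a z)) := Finset.sum_le_sum fun γ _ => h1 γ a
      _ = K.Lam * (c₁ * ((∑ γ ∈ S, ∫ z in C.V a, dD K θ 0 a z * (f γ a z * f γ a z)) +
          K.Lam * ∑ γ ∈ S, ∫ z in C.V a, Gr K f f γ a z)) := by
          rw [← Finset.mul_sum, ← Finset.mul_sum, Finset.sum_add_distrib, ← Finset.mul_sum]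
      _ ≤ K.Lam * (c₁ * (ID / K.lam + K.Lam * (IG / K.lam))) := by
          have e1 := sum_le_Int h3 P K hD hD0 a S
          have e2 := sum_le_Int h3 P K hGr hGr0 a S
          gcongr
          exact e1
      _ ≤ K.Lam * (c₁ * ((1 + K.Lam) / K.lam * (ID + IG))) := by
          have e3 : ID / K.lam + K.Lam * (IG / K.lam) ≤ (1 + K.Lam) / K.lam * (ID + IG) := by
            have : (1 + K.Lam) / K.lam * (ID + IG) - (ID / K.lam + K.Lam * (IG / K.lam)) =
                (K.Lam * ID + IG) / K.lam := by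
              field_simp; ring
            have h6 : 0 ≤ (K.Lam * ID + IG) / K.lam := by positivity
            linarith
          gcongr
  calc V.Int P K (fun γ a z => f γ a z ^ 2)
      ≤ N * ∑' γ, ∑ a, ∫ z in C.W a, f γ a z ^ 2 * vol (K.w a) z :=
        h3.ge C P K _ hSq fun γ a z _ => sq_nonneg _
    _ = N * ∑ a, ∑ γ ∈ S, ∫ z in C.W a, f γ a z ^ 2 * vol (K.w a) z := by
        rw [h2, Finset.sum_comm]
    _ ≤ N * ∑ _a : C.I, K.Lam * (c₁ * ((1 + K.Lam) / K.lam * (ID + IG))) := by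
        gcongr with a _
        exact h4 a
    _ = N * (K.Lam * (N * (c₁ * ((1 + K.Lam) / K.lam)))) * (ID + IG) := by
        rw [Finset.sum_const, Finset.card_univ, nsmul_eq_mul, ← hN]
        ring

end Vale.Agent.P284.H213.PB
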