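import Vale.Agent.P284.H402.A.Met

/-!
# P284, module (A''), WJ (helper213): the escape hypothesis for the metrics `δ > 0`
-/

open scoped Manifold ContDiff Topology Pointwise ComplexConjugate ComplexOrder Matrix
open Filter Set Metric MeasureTheory

noncomputable section

namespace Vale.Agent.P284.H213.WJ

open Vale.Agent.P272.K Vale.Agent.P284.H248 Vale.Agent.P284.H894
  Vale.Agent.P284.H894.V Vale.Agent.P284.H402.A Vale.Agent.P284.H639.V

variable {n q : ℕ} {Γ : Type} [Group Γ] {C : Coc n Γ} (P : PU C) (K : KM C) (θ : HF C q)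
  {f b : Γ → C.I → Cm n → ℝ}

/-- the square of a test function -/
def sqI (f : Γ → C.I → Cm n → ℝ) : ℝ := V.Int P K fun γ a z => f γ a z * f γ a z

variable {P K θ}

theorem sq_fam (hf : IsTst C f) : Fam C (fun γ a z => f γ a z * f γ a z) :=
  isTst_fam (isTst_mul hf hf)

theorem ip_nonneg (h3 : V3Stmt) (hA : H402.A.A2Stmt) (hf : IsTst C f) {δ : ℝ} (hδ : 0 ≤ δ) :
    0 ≤ ip P K θ δ f f := by
  have h1 := h3.mono C P K (fun _ _ _ => 0) (fun γ a z => dD K θ δ a z * (f γ a z * f γ a z))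
    Fam_zero (fam_ip hf hf K θ δ) (fun γ a z hz => by
      have hz' := V_sub_Ω C a hz
      have h2 := hA.DD_nonneg (K.w a z) (θ.th a z) δ (w_pos K hz') hδ
      exact mul_nonneg (h2.1.trans h2.2.1) (mul_self_nonneg _))
  rw [Int_zero] at h1
  exact h1

/-- `ip_0 ≤ ip_δ` -/
theorem ip_mono (h3 : V3Stmt) (hA : H402.A.A2Stmt) (hf : IsTst C f) {δ : ℝ} (hδ : 0 ≤ δ) :
    ip P K θ 0 f f ≤ ip P K θ δ f f := by
  refine h3.mono C P K _ _ (fam_ip hf hf K θ 0) (fam_ip hf hf K θ δ) fun γ a z hz => ?_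
  have hz' := V_sub_Ω C a hz
  exact mul_le_mul_of_nonneg_right (hA.DD_nonneg (K.w a z) (θ.th a z) δ (w_pos K hz') hδ).2.1
    (mul_self_nonneg _)

/-- `en_0 ≤ en_δ` -/
theorem en_mono (h3 : V3Stmt) (hA : H402.A.A2Stmt) (hf : IsTst C f) {δ : ℝ} (hδ : 0 ≤ δ) :
    en P K θ 0 f f ≤ en P K θ δ f f := by
  refine h3.mono C P K _ _ (fam_vA hf hf K θ 0) (fam_vA hf hf K θ δ) fun γ a z hz => ?_
  have hz' := V_sub_Ω C a hz
  have h1 := hA.low (K.w a z) (θ.th a z) δ (w_pos K hz') hδ (pd (f γ a) z)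
  have h2 : 0 ≤ δ * ee (K.w a z) (θ.th a z) (pd (f γ a) z) := mul_nonneg hδ h1.1
  simp only [vA]
  linarith [h1.2]

theorem en_zero_nonneg (h3 : V3Stmt) (hA : H402.A.A2Stmt) (hf : IsTst C f) : 0 ≤ en P K θ 0 f f := by
  have h1 := h3.mono C P K (fun _ _ _ => 0) _ Fam_zero (fam_vA hf hf K θ 0) (fun γ a z hz => by
      have hz' := V_sub_Ω C a hz
      have h2 := (hA.herm (K.w a z) (θ.th a z) 0 (w_pos K hz') le_rfl).dotProduct_mulVec_nonneg
        (pd (f γ a) z)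
      exact (Complex.le_def.1 h2).1)
  rw [Int_zero] at h1
  exact h1

/-- `ip_δ ≤ ip_0 + c δ ∫ f²` -/
theorem exists_ip_up (h3 : V3Stmt) (hA : H402.A.A2Stmt) (P : PU C) (K : KM C) (θ : HF C q) :
    ∃ c : ℝ, 0 < c ∧ ∀ f, IsTst C f → ∀ δ : ℝ, 0 ≤ δ → δ ≤ 1 →
      ip P K θ δ f f ≤ ip P K θ 0 f f + c * δ * sqI P K f := by
  obtain ⟨c, hc, hup⟩ := hA.up q (Lam K θ)
  refine ⟨c, hc, fun f hf δ hδ hδ1 => ?_⟩
  have h1 := h3.lin C P K _ _ 1 (c * δ) (fam_ip hf hf K θ 0) (sq_fam hf)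
  have h2 := h3.mono C P K _ _ (fam_ip hf hf K θ δ)
    (fam_lin (fam_ip hf hf K θ 0) (sq_fam hf) 1 (c * δ)) (fun γ a z hz => by
      have hz' := V_sub_Ω C a hz
      have h3 := (hup (K.w a z) (θ.th a z) δ (w_pos K hz') hδ hδ1 (gram_K K θ hz')).2.1
      have h4 := mul_le_mul_of_nonneg_right h3 (mul_self_nonneg (f γ a z))
      show dD K θ δ a z * (f γ a z * f γ a z) ≤
        1 * (dD K θ 0 a z * (f γ a z * f γ a z)) + c * δ * (f γ a z * f γ a z)
      calc dD K θ δ a z * (f γ a z * f γ a z)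
          ≤ (dD K θ 0 a z + c * δ) * (f γ a z * f γ a z) := h4
        _ = _ := by ring)
  rw [h1, one_mul] at h2
  exact h2

/-- `ip_δ b f - ip_0 b f` -/
theorem ip_diff (h3 : V3Stmt) (hA : H402.A.A2Stmt) (hb : IsTst C b) (hf : IsTst C f) {δ : ℝ} (hδ : 0 ≤ δ)
    {t : ℝ} (ht : 0 < t) : ip P K θ δ b f - ip P K θ 0 b f ≤
      t * (ip P K θ δ b b - ip P K θ 0 b b) + t⁻¹ * (ip P K θ δ f f - ip P K θ 0 f f) := by
  have l1 := h3.lin C P K _ _ 1 (-1) (fam_ip hb hf K θ δ) (fam_ip hb hf K θ 0)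
  have l2 := h3.lin C P K _ _ 1 (-1) (fam_ip hb hb K θ δ) (fam_ip hb hb K θ 0)
  have l3 := h3.lin C P K _ _ 1 (-1) (fam_ip hf hf K θ δ) (fam_ip hf hf K θ 0)
  have l4 := h3.lin C P K _ _ t t⁻¹ (fam_lin (fam_ip hb hb K θ δ) (fam_ip hb hb K θ 0) 1 (-1))
    (fam_lin (fam_ip hf hf K θ δ) (fam_ip hf hf K θ 0) 1 (-1))
  have m := h3.mono C P K _ _ (fam_lin (fam_ip hb hf K θ δ) (fam_ip hb hf K θ 0) 1 (-1))
    (fam_lin (fam_lin (fam_ip hb hb K θ δ) (fam_ip hb hb K θ 0) 1 (-1))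
      (fam_lin (fam_ip hf hf K θ δ) (fam_ip hf hf K θ 0) 1 (-1)) t t⁻¹) (fun γ a z hz => by
      have hz' := V_sub_Ω C a hz
      have h5 := (hA.DD_nonneg (K.w a z) (θ.th a z) δ (w_pos K hz') hδ).2.1
      set x := b γ a z with hx
      set y := f γ a z with hy
      have h6 : x * y ≤ t * (x * x) + t⁻¹ * (y * y) := by
        have h7 : 0 ≤ t * (x - t⁻¹ * y / 2) ^ 2 := by positivity
        have h8 : t * (x - t⁻¹ * y / 2) ^ 2 = t * (x * x) - x * y + t⁻¹ * (y * y) / 4 := by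
          field_simp
          ring
        have h9 : 0 ≤ t⁻¹ * (y * y) := mul_nonneg (inv_nonneg.2 ht.le) (mul_self_nonneg _)
        nlinarith
      have h10 : 0 ≤ dD K θ δ a z - dD K θ 0 a z := sub_nonneg.2 h5
      have h11 := mul_le_mul_of_nonneg_left h6 h10
      show 1 * (dD K θ δ a z * (x * y)) + -1 * (dD K θ 0 a z * (x * y)) ≤
        t * (1 * (dD K θ δ a z * (x * x)) + -1 * (dD K θ 0 a z * (x * x))) +
        t⁻¹ * (1 * (dD K θ δ a z * (y * y)) + -1 * (dD K θ 0 a z * (y * y)))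
      nlinarith)
  rw [l1, l4, l2, l3] at m
  simp only [one_mul, neg_mul, ← sub_eq_add_neg] at m
  exact m

/-- **WJ** -/
theorem wj (h3 : V3Stmt) (hA : H402.A.A2Stmt) (C : Coc n Γ) (P : PU C) (K : KM C) (θ : HF C q)
    (hE : Esc P K θ) (f0 : Γ → C.I → Cm n → ℝ) (hf : IsTst C f0) (h0 : 0 < ip P K θ 0 f0 f0) :
    ∃ (J : ℕ) (d0 : ℝ), 0 < d0 ∧ ∀ d, 0 < d → d ≤ d0 → ∀ b, IsTst C b →
      ip P K θ d b b ≤ 2 * ip P K θ d f0 f0 → en P K θ d b b ≤ 4 / 2 ^ J * ip P K θ d f0 f0 →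
      ip P K θ d b f0 ≤ ip P K θ d f0 f0 / 40 := by
  by_contra hcon
  push Not at hcon
  obtain ⟨c, hc, hup⟩ := exists_ip_up h3 hA P K θ
  have hpos : ∀ j : ℕ, (0 : ℝ) < 1 / ((j : ℝ) + 1) := fun j => by positivity
  choose d hd0 hdj b hb hb1 hb2 hb3 using fun j : ℕ => hcon j (1 / ((j : ℝ) + 1)) (hpos j)
  have hd1 : ∀ j, d j ≤ 1 := fun j => (hdj j).trans (by
    rw [div_le_one (by positivity)]
    have : (0 : ℝ) ≤ j := Nat.cast_nonneg j
    linarith)
  have hdt : Tendsto d atTop (𝓝 0) :=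
    squeeze_zero (fun j => (hd0 j).le) hdj tendsto_one_div_add_atTop_nhds_zero_nat
  set A0 : ℝ := ip P K θ 0 f0 f0 with hA0
  set S : ℝ := sqI P K f0 with hS
  set M : ℝ := A0 + c * |S| with hM
  have hfM : ∀ j, ip P K θ (d j) f0 f0 ≤ M := by
    intro j
    refine (hup f0 hf (d j) (hd0 j).le (hd1 j)).trans ?_
    have h1 : c * d j * S ≤ c * |S| := by
      calc c * d j * S ≤ c * d j * |S| :=
            mul_le_mul_of_nonneg_left (le_abs_self _) (mul_nonneg hc.le (hd0 j).le)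
        _ ≤ c * 1 * |S| := by
            gcongr
            exact hd1 j
        _ = c * |S| := by ring
    linarith
  have hMpos : 0 < M := by positivity
  -- the energies tend to zero
  have hen : Tendsto (fun j => en P K θ 0 (b j) (b j)) atTop (𝓝 0) := by
    have h1 : Tendsto (fun j : ℕ => 4 / 2 ^ j * M) atTop (𝓝 0) := by
      have h2 : Tendsto (fun j : ℕ => (4 * M) * ((1 / 2 : ℝ) ^ j)) atTop (𝓝 ((4 * M) * 0)) :=
        (tendsto_pow_atTop_nhds_zero_of_lt_one (by norm_num) (by norm_num)).const_mul _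
      rw [mul_zero] at h2
      refine h2.congr fun j => ?_
      rw [one_div, inv_pow]
      ring
    refine squeeze_zero (fun j => en_zero_nonneg h3 hA (hb j)) (fun j => ?_) h1
    refine (en_mono h3 hA (hb j) (hd0 j).le).trans ((hb2 j).trans ?_)
    exact mul_le_mul_of_nonneg_left (hfM j) (by positivity)
  have hip : Tendsto (fun j => ip P K θ 0 (b j) f0) atTop (𝓝 0) := by
    refine hE b hb ⟨2 * M, fun j => ?_⟩ hen f0 hf
    exact (ip_mono h3 hA (hb j) (hd0 j).le).trans ((hb1 j).trans (by linarith [hfM j]))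
  -- choose `t`
  set t : ℝ := A0 / (320 * M) with ht
  have ht0 : 0 < t := by positivity
  have hlim : Tendsto (fun j => ip P K θ 0 (b j) f0 + (t * (2 * M) + t⁻¹ * (c * d j * |S|))) atTop
      (𝓝 (0 + (t * (2 * M) + t⁻¹ * (c * 0 * |S|)))) :=
    hip.add (tendsto_const_nhds.add (((hdt.const_mul c).mul_const _).const_mul _))
  have hval : 0 + (t * (2 * M) + t⁻¹ * (c * 0 * |S|)) < A0 / 40 := by
    rw [mul_zero, zero_mul, mul_zero, add_zero, zero_add, ht]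
    have : A0 / (320 * M) * (2 * M) = A0 / 160 := by
      field_simp
      ring
    rw [this]
    linarith
  obtain ⟨j, hj⟩ := (hlim.eventually (gt_mem_nhds hval)).exists
  have h1 := ip_diff (P := P) (K := K) (θ := θ) h3 hA (hb j) hf (hd0 j).le ht0
  have h2 := hup f0 hf (d j) (hd0 j).le (hd1 j)
  have h3' : 0 ≤ ip P K θ 0 (b j) (b j) := ip_nonneg h3 hA (hb j) le_rfl
  have h4 : ip P K θ (d j) (b j) (b j) - ip P K θ 0 (b j) (b j) ≤ 2 * M := by
    have := hb1 j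
    linarith [hfM j]
  have h5 : ip P K θ (d j) f0 f0 - ip P K θ 0 f0 f0 ≤ c * d j * |S| := by
    have : c * d j * S ≤ c * d j * |S| :=
      mul_le_mul_of_nonneg_left (le_abs_self _) (mul_nonneg hc.le (hd0 j).le)
    linarith
  have h6 : ip P K θ (d j) (b j) f0 ≤
      ip P K θ 0 (b j) f0 + (t * (2 * M) + t⁻¹ * (c * d j * |S|)) := by
    have h7 := mul_le_mul_of_nonneg_left h4 ht0.le
    have h8 := mul_le_mul_of_nonneg_left h5 (inv_nonneg.2 ht0.le)
    linarith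
  have h7 := hb3 j
  have h8 := ip_mono (P := P) (K := K) (θ := θ) h3 hA hf (hd0 j).le
  have h9 : A0 / 40 ≤ ip P K θ (d j) f0 f0 / 40 := by
    rw [hA0]; linarith
  linarith

end Vale.Agent.P284.H213.WJ
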